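import Mathlib

/-!
# P281, T-S block C6 (helper295): `L¹` estimates for potentials on convex sets
-/

open Set Filter Metric MeasureTheory Function
open scoped Topology ContDiff ENNReal NNReal

noncomputable section

namespace Vale.Agent.P281.H295.TS

section Core

variable {V : Type*} [NormedAddCommGroup V] [NormedSpace ℝ V] [MeasurableSpace V] [BorelSpace V]
  [FiniteDimensional ℝ V] (μ : Measure V) [μ.IsAddHaarMeasure]

theorem core1 {C : Set V} (hC : MeasurableSet C) (hc : Convex ℝ C) {y : V} (hy : y ∈ C) {t : ℝ}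
    (ht : 1 / 2 ≤ t) (ht1 : t ≤ 1) (F : V → ℝ≥0∞) :
    ∫⁻ z in C, F (y + t • (z - y)) ∂μ ≤ 2 ^ (Module.finrank ℝ V) * ∫⁻ z in C, F z ∂μ := by
  have ht0 : 0 < t := by linarith
  set T : V → V := fun z => y + t • (z - y) with hT
  have hd : ∀ z ∈ C, HasFDerivWithinAt T (t • ContinuousLinearMap.id ℝ V) C z := by
    intro z _
    have := (((hasFDerivAt_id (𝕜 := ℝ) z).sub_const y).const_smul t).const_add y
    exact this.hasFDerivWithinAt
  have hinj : InjOn T C := by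
    intro z _ z' _ h
    have h1 : t • (z - y) = t • (z' - y) := add_left_cancel h
    have h2 := smul_right_injective V ht0.ne' h1
    exact sub_left_injective h2
  have hsub : T '' C ⊆ C := by
    rintro _ ⟨z, hz, rfl⟩
    have : T z = (1 - t) • y + t • z := by
      simp only [hT]
      module
    rw [this]
    exact hc hy hz (by linarith) ht0.le (by ring)
  have hdet : (t • ContinuousLinearMap.id ℝ V).det = t ^ Module.finrank ℝ V := by
    simp [ContinuousLinearMap.det]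
  have h1 : (1 : ℝ≥0∞) ≤ 2 ^ (Module.finrank ℝ V) *
      ENNReal.ofReal |(t • ContinuousLinearMap.id ℝ V).det| := by
    rw [hdet, abs_of_pos (pow_pos ht0 _), ENNReal.ofReal_pow ht0.le, ← mul_pow]
    refine one_le_pow₀ ?_
    have : (2 : ℝ≥0∞) = ENNReal.ofReal 2 := by simp
    rw [this, ← ENNReal.ofReal_mul (by norm_num)]
    exact ENNReal.one_le_ofReal.2 (by linarith)
  calc ∫⁻ z in C, F (T z) ∂μ ≤ ∫⁻ z in C, 2 ^ (Module.finrank ℝ V) *
        (ENNReal.ofReal |(t • ContinuousLinearMap.id ℝ V).det| * F (T z)) ∂μ := by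
        refine lintegral_mono fun z => ?_
        rw [← mul_assoc]
        calc F (T z) = 1 * F (T z) := (one_mul _).symm
          _ ≤ _ := mul_le_mul_left h1 _
    _ = 2 ^ (Module.finrank ℝ V) * ∫⁻ z in C,
        (ENNReal.ofReal |(t • ContinuousLinearMap.id ℝ V).det| * F (T z)) ∂μ := by
        rw [lintegral_const_mul' _ _ (by simp)]
    _ = 2 ^ (Module.finrank ℝ V) * ∫⁻ w in T '' C, F w ∂μ := by
        rw [lintegral_image_eq_lintegral_abs_det_fderiv_mul μ hC hd hinj]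
    _ ≤ _ := mul_le_mul_right (lintegral_mono_set hsub) _

theorem core2 {C : Set V} (hC : IsOpen C) (hc : Convex ℝ C) {W : Type*} [NormedAddCommGroup W]
    {f : V → W} (hf : ContinuousOn f C) :
    ∫⁻ y in C, ∫⁻ z in C, ∫⁻ t in Ioc (0 : ℝ) 1, ‖f (y + t • (z - y))‖ₑ ∂volume ∂μ ∂μ ≤
      μ C * (2 ^ (Module.finrank ℝ V) * ∫⁻ z in C, ‖f z‖ₑ ∂μ) := by
  set F : V → ℝ≥0∞ := C.indicator fun z => ‖f z‖ₑ with hF
  have hFm : Measurable F := by
    classical
    rw [hF, ← Set.piecewise_eq_indicator]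
    exact ContinuousOn.measurable_piecewise hf.enorm continuousOn_const hC.measurableSet
  have hFC : ∀ z ∈ C, F z = ‖f z‖ₑ := fun z hz => indicator_of_mem hz _
  have hmem : ∀ y ∈ C, ∀ z ∈ C, ∀ t ∈ Ioc (0 : ℝ) 1, y + t • (z - y) ∈ C := by
    intro y hy z hz t ht
    have : y + t • (z - y) = (1 - t) • y + t • z := by module
    rw [this]
    exact hc hy hz (by linarith [ht.2]) ht.1.le (by ring)
  have hI : ∫⁻ z in C, ‖f z‖ₑ ∂μ = ∫⁻ z in C, F z ∂μ :=
    setLIntegral_congr_fun hC.measurableSet fun z hz => (hFC z hz).symm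
  rw [hI]
  set I := ∫⁻ z in C, F z ∂μ with hIdef
  have e1 : ∫⁻ y in C, ∫⁻ z in C, ∫⁻ t in Ioc (0 : ℝ) 1, ‖f (y + t • (z - y))‖ₑ ∂volume ∂μ ∂μ =
      ∫⁻ y in C, ∫⁻ z in C, ∫⁻ t in Ioc (0 : ℝ) 1, F (y + t • (z - y)) ∂volume ∂μ ∂μ := by
    refine setLIntegral_congr_fun hC.measurableSet fun y hy => ?_
    refine setLIntegral_congr_fun hC.measurableSet fun z hz => ?_
    refine setLIntegral_congr_fun measurableSet_Ioc fun t ht => ?_
    exact (hFC _ (hmem y hy z hz t ht)).symm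
  have e2 : ∫⁻ y in C, ∫⁻ z in C, ∫⁻ t in Ioc (0 : ℝ) 1, F (y + t • (z - y)) ∂volume ∂μ ∂μ =
      ∫⁻ y in C, ∫⁻ t in Ioc (0 : ℝ) 1, ∫⁻ z in C, F (y + t • (z - y)) ∂μ ∂volume ∂μ := by
    refine lintegral_congr fun y => ?_
    refine lintegral_lintegral_swap (Measurable.aemeasurable ?_)
    exact hFm.comp (by fun_prop)
  have e3 : ∫⁻ y in C, ∫⁻ t in Ioc (0 : ℝ) 1, ∫⁻ z in C, F (y + t • (z - y)) ∂μ ∂volume ∂μ =
      ∫⁻ t in Ioc (0 : ℝ) 1, ∫⁻ y in C, ∫⁻ z in C, F (y + t • (z - y)) ∂μ ∂μ ∂volume := by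
    refine lintegral_lintegral_swap (Measurable.aemeasurable ?_)
    have : Measurable (fun q : (V × ℝ) × V => F (q.1.1 + q.1.2 • (q.2 - q.1.1))) :=
      hFm.comp (by fun_prop)
    exact this.lintegral_prod_right'
  rw [e1, e2, e3]
  have key : ∀ t ∈ Ioc (0 : ℝ) 1, ∫⁻ y in C, ∫⁻ z in C, F (y + t • (z - y)) ∂μ ∂μ ≤
      μ C * (2 ^ (Module.finrank ℝ V) * I) := by
    intro t ht
    rcases le_total (1 / 2) t with h | h
    · calc ∫⁻ y in C, ∫⁻ z in C, F (y + t • (z - y)) ∂μ ∂μ ≤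
          ∫⁻ y in C, (2 ^ (Module.finrank ℝ V) * I) ∂μ :=
            setLIntegral_mono' hC.measurableSet fun y hy => core1 μ hC.measurableSet hc hy h ht.2 F
        _ = _ := by rw [setLIntegral_const, mul_comm]
    · have h5 : ∫⁻ y in C, ∫⁻ z in C, F (y + t • (z - y)) ∂μ ∂μ =
          ∫⁻ z in C, ∫⁻ y in C, F (y + t • (z - y)) ∂μ ∂μ := by
        refine lintegral_lintegral_swap (Measurable.aemeasurable ?_)
        exact hFm.comp (by fun_prop)
      rw [h5]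
      calc ∫⁻ z in C, ∫⁻ y in C, F (y + t • (z - y)) ∂μ ∂μ ≤
          ∫⁻ z in C, (2 ^ (Module.finrank ℝ V) * I) ∂μ := by
            refine setLIntegral_mono' hC.measurableSet fun z hz => ?_
            have h6 : ∀ y : V, y + t • (z - y) = z + (1 - t) • (y - z) := fun y => by module
            simp only [h6]
            exact core1 μ hC.measurableSet hc hz (by linarith) (by linarith [ht.1]) F
        _ = _ := by rw [setLIntegral_const, mul_comm]
  calc ∫⁻ t in Ioc (0 : ℝ) 1, ∫⁻ y in C, ∫⁻ z in C, F (y + t • (z - y)) ∂μ ∂μ ∂volume ≤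
      ∫⁻ t in Ioc (0 : ℝ) 1, (μ C * (2 ^ (Module.finrank ℝ V) * I)) ∂volume :=
        setLIntegral_mono' measurableSet_Ioc key
    _ = _ := by rw [setLIntegral_const, Real.volume_Ioc]; simp

theorem core3 {C : Set V} (hC : IsOpen C) (hc : Convex ℝ C) (hne : C.Nonempty) (hfin : μ C ≠ ⊤)
    {W : Type*} [NormedAddCommGroup W] {f : V → W} (hf : ContinuousOn f C) {ε : ℝ≥0∞}
    (hε : ∫⁻ z in C, ‖f z‖ₑ ∂μ < ε) : ∃ y ∈ C,
    ∫⁻ z in C, ∫⁻ t in Ioc (0 : ℝ) 1, ‖f (y + t • (z - y))‖ₑ ∂volume ∂μ ≤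
      2 ^ (Module.finrank ℝ V) * ε := by
  by_contra hcon
  push Not at hcon
  have h1 : μ C * (2 ^ (Module.finrank ℝ V) * ε) ≤
      ∫⁻ y in C, ∫⁻ z in C, ∫⁻ t in Ioc (0 : ℝ) 1, ‖f (y + t • (z - y))‖ₑ ∂volume ∂μ ∂μ := by
    calc μ C * (2 ^ (Module.finrank ℝ V) * ε) = ∫⁻ y in C, (2 ^ (Module.finrank ℝ V) * ε) ∂μ := by
          rw [setLIntegral_const, mul_comm]
      _ ≤ _ := setLIntegral_mono' hC.measurableSet fun y hy => (hcon y hy).le
  have h2 := h1.trans (core2 μ hC hc hf)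
  have h3 : μ C ≠ 0 := (hC.measure_pos μ hne).ne'
  have h4 : (2 : ℝ≥0∞) ^ (Module.finrank ℝ V) ≠ 0 := by simp
  have h5 : (2 : ℝ≥0∞) ^ (Module.finrank ℝ V) ≠ ⊤ := by simp
  rw [ENNReal.mul_le_mul_iff_right h3 hfin, ENNReal.mul_le_mul_iff_right h4 h5] at h2
  exact absurd h2 (not_le.2 hε)

end Core

section Par

variable {V F : Type*} [NormedAddCommGroup V] [NormedSpace ℝ V] [FiniteDimensional ℝ V]
  [NormedAddCommGroup F] [NormedSpace ℝ F]

theorem csub : ContinuousSub (V →L[ℝ] V →L[ℝ] ℂ) := by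
  have : IsTopologicalAddGroup (V →L[ℝ] V →L[ℝ] ℂ) := inferInstance
  exact @IsTopologicalAddGroup.to_continuousSub _ _ _ this

theorem par_bound {U : Set V} (hU : IsOpen U) {H : V → ℝ → F}
    (hH : ContinuousOn (uncurry H) (U ×ˢ Icc (0 : ℝ) 1)) {x : V} (hx : x ∈ U) :
    ∃ N ∈ 𝓝 x, N ⊆ U ∧ ∃ M : ℝ, ∀ x' ∈ N, ∀ t ∈ Icc (0 : ℝ) 1, ‖H x' t‖ ≤ M := by
  have : ProperSpace V := FiniteDimensional.proper ℝ V
  obtain ⟨N, hN, hNU, hNc⟩ := local_compact_nhds (hU.mem_nhds hx)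
  obtain ⟨M, hM⟩ := (hNc.prod isCompact_Icc).exists_bound_of_continuousOn
    (hH.mono (prod_mono hNU le_rfl))
  exact ⟨N, hN, hNU, M, fun x' hx' t ht => hM (x', t) ⟨hx', ht⟩⟩

theorem par_slice {U : Set V} {H : V → ℝ → F}
    (hH : ContinuousOn (uncurry H) (U ×ˢ Icc (0 : ℝ) 1)) {x : V} (hx : x ∈ U) :
    ContinuousOn (H x) (Icc (0 : ℝ) 1) := by
  have : ContinuousOn (fun t : ℝ => (x, t)) (Icc (0 : ℝ) 1) := by fun_prop
  exact hH.comp this fun t ht => ⟨hx, ht⟩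

theorem par_int {U : Set V} {H : V → ℝ → F}
    (hH : ContinuousOn (uncurry H) (U ×ˢ Icc (0 : ℝ) 1)) {x : V} (hx : x ∈ U) :
    IntervalIntegrable (H x) volume 0 1 := by
  refine ContinuousOn.intervalIntegrable ?_
  rw [uIcc_of_le zero_le_one]
  exact par_slice hH hx

theorem par_cont {U : Set V} (hU : IsOpen U) {H : V → ℝ → F}
    (hH : ContinuousOn (uncurry H) (U ×ˢ Icc (0 : ℝ) 1)) :
    ContinuousOn (fun x => ∫ t in (0 : ℝ)..1, H x t) U := by
  intro x hx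
  obtain ⟨N, hN, hNU, M, hM⟩ := par_bound hU hH hx
  refine ContinuousAt.continuousWithinAt ?_
  refine intervalIntegral.continuousAt_of_dominated_interval (bound := fun _ => M) ?_ ?_ ?_ ?_
  · filter_upwards [hU.mem_nhds hx] with x' hx'
    exact (par_int hH hx').aestronglyMeasurable_restrict_uIoc
  · filter_upwards [hN] with x' hx'
    refine Eventually.of_forall fun t ht => hM x' hx' t ?_
    rw [uIoc_of_le zero_le_one] at ht
    exact ⟨ht.1.le, ht.2⟩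
  · exact intervalIntegrable_const
  · refine Eventually.of_forall fun t ht => ?_
    rw [uIoc_of_le zero_le_one] at ht
    have h1 : ContinuousOn (fun x' => H x' t) U := by
      have : ContinuousOn (fun x' : V => (x', t)) U := by fun_prop
      exact hH.comp this fun x' hx' => ⟨hx', ht.1.le, ht.2⟩
    exact h1.continuousAt (hU.mem_nhds hx)

theorem par_deriv [CompleteSpace F] {U : Set V} (hU : IsOpen U) {H : V → ℝ → F}
    {H' : V → ℝ → V →L[ℝ] F} (hH : ContinuousOn (uncurry H) (U ×ˢ Icc (0 : ℝ) 1))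
    (hH' : ContinuousOn (uncurry H') (U ×ˢ Icc (0 : ℝ) 1))
    (hd : ∀ x ∈ U, ∀ t ∈ Icc (0 : ℝ) 1, HasFDerivAt (fun x => H x t) (H' x t) x) {x : V}
    (hx : x ∈ U) :
    HasFDerivAt (fun x => ∫ t in (0 : ℝ)..1, H x t) (∫ t in (0 : ℝ)..1, H' x t) x := by
  obtain ⟨N, hN, hNU, M, hM⟩ := par_bound hU hH' hx
  refine intervalIntegral.hasFDerivAt_integral_of_dominated_of_fderiv_le (bound := fun _ => M)
    (s := N) hN ?_ (par_int hH hx) (par_int hH' hx).aestronglyMeasurable_restrict_uIoc ?_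
    intervalIntegrable_const ?_
  · filter_upwards [hU.mem_nhds hx] with x' hx'
    exact (par_int hH hx').aestronglyMeasurable_restrict_uIoc
  · refine Eventually.of_forall fun t ht x' hx' => hM x' hx' t ?_
    rw [uIoc_of_le zero_le_one] at ht
    exact ⟨ht.1.le, ht.2⟩
  · refine Eventually.of_forall fun t ht x' hx' => hd x' (hNU hx') t ?_
    rw [uIoc_of_le zero_le_one] at ht
    exact ⟨ht.1.le, ht.2⟩

theorem seg_mem {C : Set V} (hc : Convex ℝ C) {y z : V} (hy : y ∈ C) (hz : z ∈ C) {t : ℝ}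
    (ht : t ∈ Icc (0 : ℝ) 1) : y + t • (z - y) ∈ C := by
  have : y + t • (z - y) = (1 - t) • y + t • z := by module
  rw [this]
  exact hc hy hz (by linarith [ht.2]) ht.1 (by ring)

/-- the cone potential -/
theorem cone {C : Set V} (hC : IsOpen C) (hc : Convex ℝ C) {β : V → V →L[ℝ] ℂ}
    (hβ : ContDiffOn ℝ 1 β C) {y : V} (hy : y ∈ C) :
    ∃ (φ : V → ℂ) (γ : V → V →L[ℝ] ℂ), ContinuousOn γ C ∧
      (∀ z ∈ C, HasFDerivAt φ (β z - γ z) z) ∧
      ∀ z ∈ C, ‖γ z‖ₑ ≤ ‖z - y‖ₑ * ∫⁻ t in Ioc (0 : ℝ) 1,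
        ‖fderiv ℝ β (y + t • (z - y)) - (fderiv ℝ β (y + t • (z - y))).flip‖ₑ := by
  have hβd : ∀ z ∈ C, HasFDerivAt β (fderiv ℝ β z) z := fun z hz =>
    ((hβ.contDiffAt (hC.mem_nhds hz)).differentiableAt one_ne_zero).hasFDerivAt
  have hβ' : ContinuousOn (fderiv ℝ β) C := hβ.continuousOn_fderiv_of_isOpen hC le_rfl
  set p : V → ℝ → V := fun z t => y + t • (z - y) with hp
  have hpc : ContinuousOn (uncurry p) (C ×ˢ Icc (0 : ℝ) 1) := by
    apply Continuous.continuousOn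
    simp only [hp, uncurry_def]
    fun_prop
  have hpm : MapsTo (uncurry p) (C ×ˢ Icc (0 : ℝ) 1) C := fun q hq => seg_mem hc hy hq.1 hq.2
  have c1 : ContinuousOn (fun q : V × ℝ => β (p q.1 q.2)) (C ×ˢ Icc (0 : ℝ) 1) :=
    hβ.continuousOn.comp hpc hpm
  have c2 : ContinuousOn (fun q : V × ℝ => fderiv ℝ β (p q.1 q.2)) (C ×ˢ Icc (0 : ℝ) 1) :=
    hβ'.comp hpc hpm
  have c3 : ContinuousOn (fun q : V × ℝ => q.1 - y) (C ×ˢ Icc (0 : ℝ) 1) := by fun_prop
  have c4 : ContinuousOn (fun q : V × ℝ => q.2) (C ×ˢ Icc (0 : ℝ) 1) := by fun_prop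
  have c5 : ContinuousOn (fun q : V × ℝ => (fderiv ℝ β (p q.1 q.2)).flip) (C ×ˢ Icc (0 : ℝ) 1) :=
    (ContinuousLinearMap.flipₗᵢ ℝ V V ℂ).continuous.comp_continuousOn c2
  set H : V → ℝ → ℂ := fun z t => β (p z t) (z - y) with hH
  set H' : V → ℝ → V →L[ℝ] ℂ := fun z t =>
    β (p z t) + t • ((fderiv ℝ β (p z t)).flip (z - y)) with hH'
  set G : V → ℝ → V →L[ℝ] ℂ := fun z t =>
    t • ((fderiv ℝ β (p z t) - (fderiv ℝ β (p z t)).flip) (z - y)) with hG
  have hHc : ContinuousOn (uncurry H) (C ×ˢ Icc (0 : ℝ) 1) := c1.clm_apply c3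
  have hH'c : ContinuousOn (uncurry H') (C ×ˢ Icc (0 : ℝ) 1) :=
    c1.add (c4.smul (c5.clm_apply c3))
  have cs := csub (V := V)
  have hGc : ContinuousOn (uncurry G) (C ×ˢ Icc (0 : ℝ) 1) :=
    c4.smul ((c2.sub c5).clm_apply c3)
  have hpd : ∀ z : V, ∀ t : ℝ, HasFDerivAt (fun z => p z t) (t • ContinuousLinearMap.id ℝ V) z := by
    intro z t
    exact (((hasFDerivAt_id (𝕜 := ℝ) z).sub_const y).const_smul t).const_add y
  have hd : ∀ x ∈ C, ∀ t ∈ Icc (0 : ℝ) 1, HasFDerivAt (fun x => H x t) (H' x t) x := by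
    intro x hx t ht
    have h1 := (hβd _ (seg_mem hc hy hx ht)).comp x (hpd x t)
    have h2 := h1.clm_apply ((hasFDerivAt_id (𝕜 := ℝ) x).sub_const y)
    refine h2.congr_fderiv ?_
    ext v
    simp [hH', hp]
  refine ⟨fun x => ∫ t in (0 : ℝ)..1, H x t, fun x => ∫ t in (0 : ℝ)..1, G x t,
    par_cont hC hGc, ?_, ?_⟩
  · intro z hz
    refine (par_deriv hC hHc hH'c hd hz).congr_fderiv ?_
    -- `β z = ∫ (β (p z t) + t • fderiv β (p z t) (z - y))`
    have hQ : ∀ t ∈ uIcc (0 : ℝ) 1, HasDerivAt (fun t : ℝ => t • β (p z t))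
        (β (p z t) + t • (fderiv ℝ β (p z t) (z - y))) t := by
      intro t ht
      rw [uIcc_of_le zero_le_one] at ht
      have h1 : HasDerivAt (fun t : ℝ => p z t) (z - y) t := by
        have := ((hasDerivAt_id t).smul_const (z - y)).const_add y
        simpa [hp] using this
      have h2 := (hβd _ (seg_mem hc hy hz ht)).comp_hasDerivAt t h1
      have h3 := (hasDerivAt_id t).smul h2
      refine h3.congr_deriv ?_
      simp only [id, one_smul, comp_apply]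
      exact add_comm _ _
    have hQi : IntervalIntegrable (fun t : ℝ => β (p z t) + t • (fderiv ℝ β (p z t) (z - y)))
        volume 0 1 := by
      refine ContinuousOn.intervalIntegrable ?_
      rw [uIcc_of_le zero_le_one]
      have : ContinuousOn (uncurry fun (z : V) (t : ℝ) =>
          β (p z t) + t • (fderiv ℝ β (p z t) (z - y))) (C ×ˢ Icc (0 : ℝ) 1) :=
        c1.add (c4.smul (c2.clm_apply c3))
      exact par_slice this hz
    have h1 := intervalIntegral.integral_eq_sub_of_hasDerivAt hQ hQi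
    have h2 : p z 1 = z := by simp [hp]
    have h0 : (0 : ℝ) • β (p z 0) = 0 := by
      ext v
      simp
    rw [h2, one_smul, h0, sub_zero] at h1
    rw [← h1, ← intervalIntegral.integral_sub hQi (par_int hGc hz)]
    refine intervalIntegral.integral_congr fun t _ => ?_
    simp only [hH', hG]
    ext v
    simp
    ring
  · intro z hz
    simp only
    rw [intervalIntegral.integral_of_le zero_le_one]
    refine (enorm_integral_le_lintegral_enorm _).trans ?_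
    have h0 : ‖z - y‖ₑ ≠ ⊤ := by simp
    rw [← lintegral_const_mul' _ _ h0]
    refine setLIntegral_mono' measurableSet_Ioc fun t ht => ?_
    have h1 : ‖G z t‖ ≤ ‖z - y‖ * ‖fderiv ℝ β (y + t • (z - y)) -
        (fderiv ℝ β (y + t • (z - y))).flip‖ := by
      simp only [hG, hp]
      rw [norm_smul, Real.norm_eq_abs, abs_of_pos ht.1]
      have h2 := (fderiv ℝ β (y + t • (z - y)) - (fderiv ℝ β (y + t • (z - y))).flip).le_opNorm
        (z - y)
      calc t * _ ≤ 1 * _ := mul_le_mul_of_nonneg_right ht.2 (norm_nonneg _)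
        _ ≤ _ := by rw [one_mul, mul_comm ‖z - y‖]; exact h2
    have h3 := ENNReal.ofReal_le_ofReal h1
    rw [ENNReal.ofReal_mul (norm_nonneg _)] at h3
    rw [ofReal_norm, ofReal_norm] at h3
    refine h3.trans (le_of_eq ?_)
    congr 1
    exact ofReal_norm (E := V →L[ℝ] V →L[ℝ] ℂ) _

theorem lin_est {C : Set V} (hc : Convex ℝ C) {g : V → ℂ} {g' : V → V →L[ℝ] ℂ}
    (hg : ∀ z ∈ C, HasFDerivAt g (g' z) z) (hg' : ContinuousOn g' C) {y z : V} (hy : y ∈ C)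
    (hz : z ∈ C) :
    ‖g z - g y‖ₑ ≤ ‖z - y‖ₑ * ∫⁻ t in Ioc (0 : ℝ) 1, ‖g' (y + t • (z - y))‖ₑ := by
  have hQ : ∀ t ∈ uIcc (0 : ℝ) 1, HasDerivAt (fun t : ℝ => g (y + t • (z - y)))
      (g' (y + t • (z - y)) (z - y)) t := by
    intro t ht
    rw [uIcc_of_le zero_le_one] at ht
    have h1 : HasDerivAt (fun t : ℝ => y + t • (z - y)) (z - y) t := by
      have := ((hasDerivAt_id t).smul_const (z - y)).const_add y
      simpa using this
    exact (hg _ (seg_mem hc hy hz ht)).comp_hasDerivAt t h1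
  have hc1 : ContinuousOn (fun t : ℝ => g' (y + t • (z - y)) (z - y)) (Icc (0 : ℝ) 1) := by
    have h1 : ContinuousOn (fun t : ℝ => y + t • (z - y)) (Icc (0 : ℝ) 1) := by fun_prop
    exact (hg'.comp h1 fun t ht => seg_mem hc hy hz ht).clm_apply continuousOn_const
  have hQi : IntervalIntegrable (fun t : ℝ => g' (y + t • (z - y)) (z - y)) volume 0 1 := by
    refine ContinuousOn.intervalIntegrable ?_
    rwa [uIcc_of_le zero_le_one]
  have h1 := intervalIntegral.integral_eq_sub_of_hasDerivAt hQ hQi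
  have h2 : y + (1 : ℝ) • (z - y) = z := by simp
  have h3 : y + (0 : ℝ) • (z - y) = y := by simp
  rw [h2, h3] at h1
  rw [← h1, intervalIntegral.integral_of_le zero_le_one]
  refine (enorm_integral_le_lintegral_enorm _).trans ?_
  have h0 : ‖z - y‖ₑ ≠ ⊤ := by simp
  rw [← lintegral_const_mul' _ _ h0]
  refine setLIntegral_mono' measurableSet_Ioc fun t ht => ?_
  rw [mul_comm]
  exact (g' (y + t • (z - y))).le_opENorm _

end Par

section Good

variable {V : Type*} [NormedAddCommGroup V] [NormedSpace ℝ V] [MeasurableSpace V] [BorelSpace V]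
  [FiniteDimensional ℝ V] (μ : Measure V) [μ.IsAddHaarMeasure]

theorem good1 {C : Set V} (hC : IsOpen C) (hc : Convex ℝ C) (hne : C.Nonempty) (hfin : μ C ≠ ⊤)
    {D : ℝ≥0∞} (hD : ∀ y ∈ C, ∀ z ∈ C, ‖z - y‖ₑ ≤ D) (hD1 : D ≠ ⊤) {g : V → ℂ}
    {g' : V → V →L[ℝ] ℂ} (hg : ∀ z ∈ C, HasFDerivAt g (g' z) z) (hg' : ContinuousOn g' C)
    {ε : ℝ≥0∞} (hε : ∫⁻ z in C, ‖g' z‖ₑ ∂μ < ε) :
    ∃ h : ℂ, ∫⁻ z in C, ‖g z - h‖ₑ ∂μ ≤ D * (2 ^ (Module.finrank ℝ V) * ε) := by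
  obtain ⟨y, hy, h⟩ := core3 μ hC hc hne hfin hg' hε
  refine ⟨g y, ?_⟩
  calc ∫⁻ z in C, ‖g z - g y‖ₑ ∂μ ≤
      ∫⁻ z in C, D * ∫⁻ t in Ioc (0 : ℝ) 1, ‖g' (y + t • (z - y))‖ₑ ∂volume ∂μ := by
        refine setLIntegral_mono' hC.measurableSet fun z hz => ?_
        exact (lin_est hc hg hg' hy hz).trans (mul_le_mul_left (hD y hy z hz) _)
    _ = D * ∫⁻ z in C, ∫⁻ t in Ioc (0 : ℝ) 1, ‖g' (y + t • (z - y))‖ₑ ∂volume ∂μ := by
        rw [lintegral_const_mul' _ _ hD1]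
    _ ≤ _ := mul_le_mul_right h _

theorem good2 {C : Set V} (hC : IsOpen C) (hc : Convex ℝ C) (hne : C.Nonempty) (hfin : μ C ≠ ⊤)
    {D : ℝ≥0∞} (hD : ∀ y ∈ C, ∀ z ∈ C, ‖z - y‖ₑ ≤ D) (hD1 : D ≠ ⊤) {β : V → V →L[ℝ] ℂ}
    (hβ : ContDiffOn ℝ 1 β C) {ε : ℝ≥0∞}
    (hε : ∫⁻ z in C, ‖fderiv ℝ β z - (fderiv ℝ β z).flip‖ₑ ∂μ < ε) :
    ∃ (φ : V → ℂ) (γ : V → V →L[ℝ] ℂ), ContinuousOn γ C ∧
      (∀ z ∈ C, HasFDerivAt φ (β z - γ z) z) ∧
      ∫⁻ z in C, ‖γ z‖ₑ ∂μ ≤ D * (2 ^ (Module.finrank ℝ V) * ε) := by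
  have hβ' : ContinuousOn (fderiv ℝ β) C := hβ.continuousOn_fderiv_of_isOpen hC le_rfl
  have cs := csub (V := V)
  have hf : ContinuousOn (fun z => fderiv ℝ β z - (fderiv ℝ β z).flip) C :=
    hβ'.sub ((ContinuousLinearMap.flipₗᵢ ℝ V V ℂ).continuous.comp_continuousOn hβ')
  obtain ⟨y, hy, h⟩ := core3 (W := V →L[ℝ] V →L[ℝ] ℂ) μ hC hc hne hfin hf hε
  obtain ⟨φ, γ, h1, h2, h3⟩ := cone hC hc hβ hy
  refine ⟨φ, γ, h1, h2, ?_⟩
  calc ∫⁻ z in C, ‖γ z‖ₑ ∂μ ≤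
      ∫⁻ z in C, D * ∫⁻ t in Ioc (0 : ℝ) 1, ‖fderiv ℝ β (y + t • (z - y)) -
        (fderiv ℝ β (y + t • (z - y))).flip‖ₑ ∂volume ∂μ := by
        refine setLIntegral_mono' hC.measurableSet fun z hz => ?_
        exact (h3 z hz).trans (mul_le_mul_left (hD y hy z hz) _)
    _ = D * ∫⁻ z in C, ∫⁻ t in Ioc (0 : ℝ) 1, ‖fderiv ℝ β (y + t • (z - y)) -
        (fderiv ℝ β (y + t • (z - y))).flip‖ₑ ∂volume ∂μ := by
        rw [lintegral_const_mul' _ _ hD1]
    _ ≤ _ := mul_le_mul_right h _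

end Good

end Vale.Agent.P281.H295.TS
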