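import Mathlib
import Vale.Agent.P281.H64.TS.Spec

/-!
# P281, T-S block C6 (helper295): transition maps of the sheets, change of variables
-/

open Set Filter Metric MeasureTheory Vale.Agent.P272.K
open scoped Topology ContDiff ComplexConjugate ComplexOrder ENNReal NNReal

noncomputable section

namespace Vale.Agent.P281.H295.TS

open Vale.Agent.P281.H64.TK Vale.Agent.P281.H64.TK.TS

variable {d : ℕ} {E Γ : Type} [TopologicalSpace E] [Group Γ] [MulAction Γ E]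

section
variable (S : Sheets d E Γ)

theorem contAt (i : Fin S.N) {z : Cm d} (hz : z ∈ ball (0 : Cm d) 3) : ContinuousAt (S.σ i) z :=
  (S.map_nhds i z hz).le

theorem contOn (i : Fin S.N) : ContinuousOn (S.σ i) (ball 0 3) :=
  fun _ hz => (contAt S i hz).continuousWithinAt

theorem inj1 (i : Fin S.N) {z w : Cm d} (hz : z ∈ ball (0 : Cm d) 3) (hw : w ∈ ball (0 : Cm d) 3)
    (h : S.σ i z = S.σ i w) : z = w :=
  (S.inj i z hz w hw 1 (by rw [one_smul, h])).2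

theorem isOpen_image (i : Fin S.N) {U : Set (Cm d)} (hU : IsOpen U) (hs : U ⊆ ball 0 3) :
    IsOpen (S.σ i '' U) := by
  rw [isOpen_iff_mem_nhds]
  rintro _ ⟨z, hz, rfl⟩
  rw [← S.map_nhds i z (hs hz)]
  exact image_mem_map (hU.mem_nhds hz)

/-- the transition map from the sheet `i` to the sheet `j` -/
def tm (i j : Fin S.N) (z : Cm d) : Cm d := Function.invFunOn (S.σ j) (ball 0 3) (S.σ i z)

theorem tm_eq {i j : Fin S.N} {z w : Cm d} (hw : w ∈ ball (0 : Cm d) 3)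
    (h : S.σ i z = S.σ j w) : tm S i j z = w := by
  have h1 : ∃ a ∈ ball (0 : Cm d) 3, S.σ j a = S.σ i z := ⟨w, hw, h.symm⟩
  have h2 := Function.invFunOn_mem h1
  have h3 := Function.invFunOn_eq h1
  exact inj1 S j h2 hw (h3.trans h)

theorem tm_ev [Subsingleton Γ] {i j : Fin S.N} {z w : Cm d} (hz : z ∈ ball (0 : Cm d) 3)
    (hw : w ∈ ball (0 : Cm d) 3) (h : S.σ i z = S.σ j w) :
    AnalyticAt ℂ (tm S i j) z ∧ ∀ᶠ u in 𝓝 z, tm S i j u ∈ ball (0 : Cm d) 3 ∧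
      S.σ i u = S.σ j (tm S i j u) := by
  obtain ⟨θ, h1, h2, h3⟩ := S.hol i j z hz w hw 1 (by rw [one_smul, h])
  have h4 : ∀ᶠ u in 𝓝 z, θ u ∈ ball (0 : Cm d) 3 := by
    have := h1.continuousAt.tendsto
    rw [h2] at this
    exact this.eventually (isOpen_ball.mem_nhds hw)
  have h5 : ∀ᶠ u in 𝓝 z, θ u = tm S i j u := by
    filter_upwards [h3, h4] with u hu hu'
    rw [one_smul] at hu
    exact (tm_eq S hu' hu).symm
  refine ⟨h1.congr h5, ?_⟩
  filter_upwards [h3, h4, h5] with u hu hu' hu''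
  rw [one_smul] at hu
  rw [← hu'']
  exact ⟨hu', hu⟩

theorem eq_tm {i j : Fin S.N} {z w : Cm d} (hw : w ∈ ball (0 : Cm d) 3) {ψ : Cm d → Cm d}
    (h : Tr S S id i j z w ψ) : ψ =ᶠ[𝓝 z] tm S i j := by
  have h4 : ∀ᶠ u in 𝓝 z, ψ u ∈ ball (0 : Cm d) 3 := by
    have := h.1.continuousAt.tendsto
    rw [h.2.1] at this
    exact this.eventually (isOpen_ball.mem_nhds hw)
  filter_upwards [h.2.2, h4] with u hu hu'
  exact (tm_eq S hu' hu).symm

theorem tr_tm [Subsingleton Γ] {i j : Fin S.N} {z w : Cm d} (hz : z ∈ ball (0 : Cm d) 3)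
    (hw : w ∈ ball (0 : Cm d) 3) (h : S.σ i z = S.σ j w) : Tr S S id i j z w (tm S i j) := by
  obtain ⟨h1, h2⟩ := tm_ev S hz hw h
  refine ⟨(h1.restrictScalars (𝕜 := ℝ)).contDiffAt, tm_eq S hw h, ?_⟩
  filter_upwards [h2] with u hu using hu.2

theorem tm_cd [Subsingleton Γ] {i j : Fin S.N} {z w : Cm d} (hz : z ∈ ball (0 : Cm d) 3)
    (hw : w ∈ ball (0 : Cm d) 3) (h : S.σ i z = S.σ j w) (n : WithTop ℕ∞) :
    ContDiffAt ℝ n (tm S i j) z :=
  ((tm_ev S hz hw h).1.restrictScalars (𝕜 := ℝ)).contDiffAt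

theorem tm_comp [Subsingleton Γ] {i j : Fin S.N} {z w : Cm d} (hz : z ∈ ball (0 : Cm d) 3)
    (hw : w ∈ ball (0 : Cm d) 3) (h : S.σ i z = S.σ j w) :
    (fderiv ℝ (tm S j i) w).comp (fderiv ℝ (tm S i j) z) = ContinuousLinearMap.id ℝ (Cm d) := by
  have h1 := (tm_cd S hz hw h 1).differentiableAt one_ne_zero
  have h2 := (tm_cd S hw hz h.symm 1).differentiableAt one_ne_zero
  have h3 : tm S i j z = w := tm_eq S hw h
  have h4 : (fun u => tm S j i (tm S i j u)) =ᶠ[𝓝 z] id := by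
    filter_upwards [(tm_ev S hz hw h).2, isOpen_ball.mem_nhds hz] with u hu hu'
    exact tm_eq S hu' hu.2.symm
  have h5 : HasFDerivAt (fun u => tm S j i (tm S i j u))
      ((fderiv ℝ (tm S j i) w).comp (fderiv ℝ (tm S i j) z)) z := by
    rw [← h3] at h2 ⊢
    exact h2.hasFDerivAt.comp z h1.hasFDerivAt
  exact h5.unique ((hasFDerivAt_id z).congr_of_eventuallyEq h4)

theorem tm_det [Subsingleton Γ] {i j : Fin S.N} {z w : Cm d} (hz : z ∈ ball (0 : Cm d) 3)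
    (hw : w ∈ ball (0 : Cm d) 3) (h : S.σ i z = S.σ j w) : (fderiv ℝ (tm S i j) z).det ≠ 0 := by
  intro h0
  have h1 := congrArg ContinuousLinearMap.det (tm_comp S hz hw h)
  have h2 : ((fderiv ℝ (tm S j i) w).comp (fderiv ℝ (tm S i j) z)).det =
      (fderiv ℝ (tm S j i) w).det * (fderiv ℝ (tm S i j) z).det := by
    simp [ContinuousLinearMap.det, LinearMap.det_comp]
  rw [h2, h0, mul_zero] at h1
  simp [ContinuousLinearMap.det] at h1

/-- the domain of the transition map -/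
theorem isOpen_dom (i j : Fin S.N) {U : Set (Cm d)} (hU : IsOpen U) (hs : U ⊆ ball 0 3)
    {V : Set (Cm d)} (hV : IsOpen V) (hVs : V ⊆ ball 0 3) :
    IsOpen {z | z ∈ V ∧ S.σ i z ∈ S.σ j '' U} := by
  have h1 := (contOn S i).mono hVs
  exact h1.isOpen_inter_preimage hV (isOpen_image S j hU hs)

theorem cl2 : closedBall (0 : Cm d) 2 ⊆ ball 0 3 := closedBall_subset_ball (by norm_num)

theorem isCompact_dom [T2Space E] (i j : Fin S.N) :
    IsCompact {z | z ∈ closedBall (0 : Cm d) 2 ∧ S.σ i z ∈ S.σ j '' closedBall 0 2} := by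
  have h1 : ContinuousOn (S.σ i) (closedBall 0 2) := (contOn S i).mono cl2
  have h2 : IsCompact (S.σ j '' closedBall 0 2) :=
    (isCompact_closedBall 0 2).image_of_continuousOn ((contOn S j).mono cl2)
  exact (isCompact_closedBall (0 : Cm d) 2).of_isClosed_subset
    (h1.preimage_isClosed_of_isClosed isClosed_closedBall h2.isClosed) (fun z hz => hz.1)

theorem tm_bound [T2Space E] [Subsingleton Γ] (i j : Fin S.N) :
    ∃ K : ℝ, 0 < K ∧ ∀ z ∈ closedBall (0 : Cm d) 2, ∀ w ∈ closedBall (0 : Cm d) 2,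
      S.σ i z = S.σ j w → ‖fderiv ℝ (tm S i j) z‖ ≤ K ∧ 1 ≤ K * |(fderiv ℝ (tm S i j) z).det| := by
  set D : Set (Cm d) := {z | z ∈ closedBall (0 : Cm d) 2 ∧ S.σ i z ∈ S.σ j '' closedBall 0 2}
    with hD
  have h1 : ContinuousOn (fderiv ℝ (tm S i j)) D := by
    rintro z ⟨hz, w, hw, hzw⟩
    have := (tm_cd S (cl2 hz) (cl2 hw) hzw.symm 1)
    exact (this.fderiv_right (m := 0) (by norm_num)).continuousAt.continuousWithinAt
  have h2 : ContinuousOn (fun z => (fderiv ℝ (tm S i j) z).det) D :=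
    ContinuousLinearMap.continuous_det.comp_continuousOn h1
  have h3 : ∀ z ∈ D, (fderiv ℝ (tm S i j) z).det ≠ 0 := by
    rintro z ⟨hz, w, hw, hzw⟩
    exact tm_det S (cl2 hz) (cl2 hw) hzw.symm
  obtain ⟨K1, hK1⟩ := (isCompact_dom S i j).exists_bound_of_continuousOn h1
  obtain ⟨K2, hK2⟩ := (isCompact_dom S i j).exists_bound_of_continuousOn (h2.inv₀ h3)
  refine ⟨max 1 (max K1 K2), lt_max_of_lt_left one_pos, ?_⟩
  intro z hz w hw hzw
  have hz' : z ∈ D := ⟨hz, w, hw, hzw.symm⟩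
  refine ⟨(hK1 z hz').trans ((le_max_left _ _).trans (le_max_right _ _)), ?_⟩
  have h4 := (hK2 z hz').trans ((le_max_right K1 K2).trans (le_max_right 1 _))
  rw [Pi.inv_apply, norm_inv, Real.norm_eq_abs] at h4
  have h5 : 0 < |(fderiv ℝ (tm S i j) z).det| := abs_pos.2 (h3 z hz')
  rwa [inv_le_iff_one_le_mul₀ h5] at h4

/-- change of variables -/
theorem cv [T2Space E] [Subsingleton Γ] (i j : Fin S.N) : ∃ K : ℝ≥0, ∀ A B : Set (Cm d),
    MeasurableSet A → A ⊆ closedBall 0 2 → B ⊆ closedBall 0 2 →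
    (∀ z ∈ A, ∃ w ∈ B, S.σ i z = S.σ j w) → ∀ f g : Cm d → ℝ≥0∞,
    (∀ z ∈ A, ∀ w ∈ B, S.σ i z = S.σ j w → f z ≤ g w) →
    ∫⁻ z in A, f z ≤ K * ∫⁻ w in B, g w := by
  obtain ⟨K, hK0, hK⟩ := tm_bound S i j
  refine ⟨K.toNNReal, ?_⟩
  intro A B hA hA2 hB2 hAB f g hfg
  have hw : ∀ z ∈ A, tm S i j z ∈ B ∧ S.σ i z = S.σ j (tm S i j z) := by
    intro z hz
    obtain ⟨w, hw, h⟩ := hAB z hz
    rw [tm_eq S (cl2 (hB2 hw)) h]
    exact ⟨hw, h⟩
  have hd : ∀ z ∈ A, HasFDerivWithinAt (tm S i j) (fderiv ℝ (tm S i j) z) A z := by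
    intro z hz
    obtain ⟨h1, h2⟩ := hw z hz
    exact ((tm_cd S (cl2 (hA2 hz)) (cl2 (hB2 h1)) h2 1).differentiableAt
      one_ne_zero).hasFDerivAt.hasFDerivWithinAt
  have hinj : InjOn (tm S i j) A := by
    intro z hz z' hz' h
    have h1 := (hw z hz).2
    have h2 := (hw z' hz').2
    exact inj1 S i (cl2 (hA2 hz)) (cl2 (hA2 hz')) (by rw [h1, h2, h])
  calc ∫⁻ z in A, f z ≤ ∫⁻ z in A, (K.toNNReal : ℝ≥0∞) *
        (ENNReal.ofReal |(fderiv ℝ (tm S i j) z).det| * g (tm S i j z)) := by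
        refine setLIntegral_mono' hA fun z hz => ?_
        obtain ⟨h1, h2⟩ := hw z hz
        have h3 := (hK z (hA2 hz) _ (hB2 h1) h2).2
        have h4 : (1 : ℝ≥0∞) ≤ (K.toNNReal : ℝ≥0∞) *
            ENNReal.ofReal |(fderiv ℝ (tm S i j) z).det| := by
          change _ ≤ ENNReal.ofReal K * _
          rw [← ENNReal.ofReal_mul hK0.le]
          exact ENNReal.one_le_ofReal.2 h3
        calc f z ≤ g (tm S i j z) := hfg z hz _ h1 h2
          _ = 1 * g (tm S i j z) := (one_mul _).symm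
          _ ≤ _ := by
            rw [← mul_assoc]
            exact mul_le_mul_left h4 _
    _ = (K.toNNReal : ℝ≥0∞) * ∫⁻ z in A,
        (ENNReal.ofReal |(fderiv ℝ (tm S i j) z).det| * g (tm S i j z)) := by
        rw [lintegral_const_mul' _ _ ENNReal.coe_ne_top]
    _ = (K.toNNReal : ℝ≥0∞) * ∫⁻ w in tm S i j '' A, g w := by
        rw [lintegral_image_eq_lintegral_abs_det_fderiv_mul volume hA hd hinj]
    _ ≤ _ := by
        refine mul_le_mul_right ?_ _
        exact lintegral_mono_set (by rintro _ ⟨z, hz, rfl⟩; exact (hw z hz).1)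

end

end Vale.Agent.P281.H295.TS
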