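import Mathlib
import Vale.Agent.P281.H295.TS.Tm
import Vale.Agent.P281.H295.TS.Loc

/-!
# P281, T-S block C6 (helper295): the Čech cocycle of a closed form which is small in `L¹`
-/

open Set Filter Metric MeasureTheory Vale.Agent.P272.K
open scoped Topology ContDiff ComplexConjugate ComplexOrder ENNReal NNReal

noncomputable section

namespace Vale.Agent.P281.H295.TS

open Vale.Agent.P281.H64.TK Vale.Agent.P281.H64.TK.TS

variable {d : ℕ} {E Γ : Type} [TopologicalSpace E] [Group Γ] [MulAction Γ E]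

theorem unif {ι : Type} [Finite ι] {P : ι → ℝ≥0 → Prop}
    (hm : ∀ i k k', k ≤ k' → P i k → P i k') (h : ∀ i, ∃ k, P i k) : ∃ k, ∀ i, P i k := by
  cases nonempty_fintype ι
  choose k hk using h
  exact ⟨∑ i, k i, fun i => hm i _ _
    (Finset.single_le_sum (fun _ _ => zero_le) (Finset.mem_univ i)) (hk i)⟩

theorem isOpen_eb (c : Cm d) (r : ℝ) : IsOpen (eb c r) := by
  apply isOpen_lt <;> fun_prop

section
variable {S : Sheets d E Γ} {A : Type} (G : Good S A)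

/-- the ball number `a` -/
def B (a : A) : Set (Cm d) := eb (G.c a) (G.r a)

theorem isOpen_B (a : A) : IsOpen (B G a) := isOpen_eb _ _

theorem B_sub (a : A) : B G a ⊆ closedBall 0 2 := by
  intro z hz
  have h1 : z ∈ eb (G.c a) (2 * G.r a) := by
    have h2 : ∑ k, ‖z k - G.c a k‖ ^ 2 < G.r a ^ 2 := hz
    show ∑ k, ‖z k - G.c a k‖ ^ 2 < (2 * G.r a) ^ 2
    have := G.pos a
    nlinarith
  exact ball_subset_closedBall (G.sub a h1)

theorem B_sub3 (a : A) : B G a ⊆ ball 0 3 := (B_sub G a).trans cl2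

theorem vol_fin {C : Set (Cm d)} (h : C ⊆ closedBall 0 2) : volume C ≠ ⊤ :=
  ((measure_mono h).trans_lt (isCompact_closedBall (0 : Cm d) 2).measure_lt_top).ne

theorem dist4 {C : Set (Cm d)} (h : C ⊆ closedBall 0 2) :
    ∀ y ∈ C, ∀ z ∈ C, ‖z - y‖ₑ ≤ (4 : ℝ≥0∞) := by
  intro y hy z hz
  have h1 := h hy
  have h2 := h hz
  rw [mem_closedBall_zero_iff] at h1 h2
  have h3 : ‖z - y‖ ≤ 4 := (norm_sub_le z y).trans (by linarith)
  have h4 := ENNReal.ofReal_le_ofReal h3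
  rw [ofReal_norm] at h4
  simpa using h4

theorem mem_U {a : A} {z : Cm d} (hz : z ∈ ball (0 : Cm d) 3) :
    S.σ (G.i a) z ∈ G.U a ↔ z ∈ B G a := by
  constructor
  · rintro ⟨w, hw, h⟩
    rwa [← inj1 S _ (B_sub3 G a hw) hz h]
  · exact fun h => ⟨z, h, rfl⟩

/-- comparison of the norms of a 2-form in two sheets -/
theorem norm2 [T2Space E] [Subsingleton Γ] (i j : Fin S.N) : ∃ K : ℝ≥0,
    ∀ α : Fin S.N → Cm d → L2 d, F2On S univ α → ∀ z ∈ closedBall (0 : Cm d) 2,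
      ∀ w ∈ closedBall (0 : Cm d) 2, S.σ i z = S.σ j w → ‖α i z‖ₑ ≤ K * ‖α j w‖ₑ := by
  obtain ⟨K, hK0, hK⟩ := tm_bound S i j
  refine ⟨(K * K).toNNReal, fun α hα z hz w hw h => ?_⟩
  have h1 := (hK z hz w hw h).1
  have h2 := hα.change i j z (cl2 hz) w (cl2 hw) (mem_univ _) _ (tr_tm S (cl2 hz) (cl2 hw) h)
  have h3 : ‖α i z‖ ≤ K * K * ‖α j w‖ := by
    refine ContinuousLinearMap.opNorm_le_bound₂ _ (by positivity) fun u v => ?_
    rw [h2]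
    refine (ContinuousLinearMap.le_opNorm₂ _ _ _).trans ?_
    have h4 := (fderiv ℝ (tm S i j) z).le_of_opNorm_le h1 u
    have h5 := (fderiv ℝ (tm S i j) z).le_of_opNorm_le h1 v
    calc ‖α j w‖ * ‖fderiv ℝ (tm S i j) z u‖ * ‖fderiv ℝ (tm S i j) z v‖ ≤
        ‖α j w‖ * (K * ‖u‖) * (K * ‖v‖) := by gcongr
      _ = _ := by ring
  have h6 := ENNReal.ofReal_le_ofReal h3
  rw [ENNReal.ofReal_mul (by positivity)] at h6
  rw [← ofReal_norm (E := Cm d →L[ℝ] Cm d →L[ℝ] ℂ) (α i z),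
    ← ofReal_norm (E := Cm d →L[ℝ] Cm d →L[ℝ] ℂ) (α j w)]
  exact h6

/-- the part of the ball which is in the fundamental piece number `j` -/
def Aj (a : A) (j : Fin S.N) : Set (Cm d) :=
  {z | z ∈ B G a ∧ S.σ (G.i a) z ∈ S.σ j '' ball 0 1} \
    ⋃ k : Fin S.N, ⋃ _ : k < j, {z | z ∈ B G a ∧ S.σ (G.i a) z ∈ S.σ k '' ball 0 1}

theorem b13 : ball (0 : Cm d) 1 ⊆ ball 0 3 := ball_subset_ball (by norm_num)

theorem meas_Aj (a : A) (j : Fin S.N) : MeasurableSet (Aj G a j) := by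
  have h := fun k : Fin S.N => isOpen_dom S (G.i a) k isOpen_ball b13 (isOpen_B G a) (B_sub3 G a)
  refine (h j).measurableSet.diff ?_
  exact MeasurableSet.iUnion fun k => MeasurableSet.iUnion fun _ => (h k).measurableSet

theorem P_sub (j : Fin S.N) : S.P j ⊆ closedBall 0 2 := by
  intro z hz
  rw [mem_closedBall_zero_iff]
  linarith [hz.1]

theorem Aj_P [Subsingleton Γ] (a : A) (j : Fin S.N) :
    ∀ z ∈ Aj G a j, ∃ w ∈ S.P j, S.σ (G.i a) z = S.σ j w := by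
  rintro z ⟨⟨hz, w, hw, h⟩, h2⟩
  refine ⟨w, ⟨mem_ball_zero_iff.1 hw, ?_⟩, h.symm⟩
  intro k hk γ w' hw' h3
  apply h2
  simp only [mem_iUnion]
  refine ⟨k, hk, hz, w', mem_ball_zero_iff.2 hw', ?_⟩
  rw [Subsingleton.elim γ 1, one_smul] at h3
  rw [h3, h]

theorem B_Aj [Subsingleton Γ] (a : A) : B G a ⊆ ⋃ j, Aj G a j := by
  intro z hz
  have h1 : {j : Fin S.N | S.σ (G.i a) z ∈ S.σ j '' ball 0 1}.Nonempty := by
    obtain ⟨γ, i, w, hw, h⟩ := S.cover (S.σ (G.i a) z)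
    rw [Subsingleton.elim γ 1, one_smul] at h
    exact ⟨i, w, mem_ball_zero_iff.2 hw, h⟩
  obtain ⟨j, hj, hmin⟩ := wellFounded_lt.has_min _ h1
  refine mem_iUnion.2 ⟨j, ⟨hz, hj⟩, ?_⟩
  simp only [mem_iUnion, not_exists]
  intro k hk h2
  exact hmin k h2.2 hk

theorem stepI [T2Space E] [Subsingleton Γ] (a : A) : ∃ K : ℝ≥0,
    ∀ α : Fin S.N → Cm d → L2 d, F2On S univ α →
      ∫⁻ z in B G a, ‖α (G.i a) z‖ₑ ≤ K * ∑ j, ∫⁻ z in S.P j, ‖α j z‖ₑ := by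
  have h1 : ∀ j : Fin S.N, ∃ K : ℝ≥0, ∀ α : Fin S.N → Cm d → L2 d, F2On S univ α →
      ∫⁻ z in Aj G a j, ‖α (G.i a) z‖ₑ ≤ K * ∫⁻ z in S.P j, ‖α j z‖ₑ := by
    intro j
    obtain ⟨K1, hK1⟩ := cv S (G.i a) j
    obtain ⟨K2, hK2⟩ := norm2 (S := S) (G.i a) j
    refine ⟨K1 * K2, fun α hα => ?_⟩
    have h2 := hK1 (Aj G a j) (S.P j) (meas_Aj G a j) (fun z hz => B_sub G a hz.1.1) (P_sub j)
      (Aj_P G a j) (fun z => ‖α (G.i a) z‖ₑ) (fun w => K2 * ‖α j w‖ₑ)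
      (fun z hz w hw h => hK2 α hα z (B_sub G a hz.1.1) w (P_sub j hw) h)
    rw [lintegral_const_mul' _ _ ENNReal.coe_ne_top] at h2
    rw [ENNReal.coe_mul, mul_assoc]
    exact h2
  obtain ⟨K, hK⟩ := unif (fun j k k' hk h α hα => (h α hα).trans (by gcongr)) h1
  refine ⟨K, fun α hα => ?_⟩
  calc ∫⁻ z in B G a, ‖α (G.i a) z‖ₑ ≤ ∫⁻ z in ⋃ j, Aj G a j, ‖α (G.i a) z‖ₑ :=
        lintegral_mono_set (B_Aj G a)
    _ ≤ ∑' j, ∫⁻ z in Aj G a j, ‖α (G.i a) z‖ₑ := lintegral_iUnion_le _ _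
    _ = ∑ j, ∫⁻ z in Aj G a j, ‖α (G.i a) z‖ₑ := tsum_fintype _
    _ ≤ ∑ j, K * ∫⁻ z in S.P j, ‖α j z‖ₑ := Finset.sum_le_sum fun j _ => hK j α hα
    _ = _ := by rw [Finset.mul_sum]

/-- the data of the potentials -/
structure Pot (β : A → Fin S.N → Cm d → L1 d) (φ : A → Cm d → ℂ) (γ : A → Cm d → L1 d)
    (ε : ℝ≥0∞) : Prop where
  cont : ∀ a, ContinuousOn (γ a) (B G a)
  der : ∀ a, ∀ z ∈ B G a, HasFDerivAt (φ a) (β a (G.i a) z - γ a z) z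
  bd : ∀ a, ∫⁻ z in B G a, ‖γ a z‖ₑ ≤ ε

theorem B_conv (a : A) : Convex ℝ (B G a) := by
  have h1 := G.conv a a
  have h2 : {z | z ∈ eb (G.c a) (G.r a) ∧ S.σ (G.i a) z ∈ S.σ (G.i a) '' eb (G.c a) (G.r a)} =
      B G a := by
    ext z
    exact ⟨fun h => h.1, fun h => ⟨h, z, h, rfl⟩⟩
  rwa [h2] at h1

theorem B_ne (a : A) : (B G a).Nonempty := by
  refine ⟨G.c a, ?_⟩
  show ∑ k, ‖G.c a k - G.c a k‖ ^ 2 < (G.r a) ^ 2
  simp only [sub_self, norm_zero, ne_eq, OfNat.ofNat_ne_zero, not_false_eq_true, zero_pow,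
    Finset.sum_const_zero]
  exact pow_pos (G.pos a) 2

theorem stepII [T2Space E] [Subsingleton Γ] [Finite A] : ∃ K : ℝ≥0,
    ∀ (α : Fin S.N → Cm d → L2 d) (β : A → Fin S.N → Cm d → L1 d) (ε : ℝ≥0∞), F2On S univ α →
      (∀ a, F1On S (G.U a) (β a)) → (∀ a, IsD1 S (G.U a) (β a) α) →
      ∑ j, ∫⁻ z in S.P j, ‖α j z‖ₑ < ε → ∃ φ γ, Pot G β φ γ (K * ε) := by
  obtain ⟨K, hK⟩ := unif (fun a k k' hk h α hα => (h α hα).trans (by gcongr)) (stepI G)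
  refine ⟨4 * (2 ^ (Module.finrank ℝ (Cm d)) * (K + 1)), fun α β ε hα hβ hd hε => ?_⟩
  have key : ∀ a, ∃ (φ : Cm d → ℂ) (γ : Cm d → L1 d), ContinuousOn γ (B G a) ∧
      (∀ z ∈ B G a, HasFDerivAt φ (β a (G.i a) z - γ z) z) ∧
      ∫⁻ z in B G a, ‖γ z‖ₑ ≤ 4 * (2 ^ (Module.finrank ℝ (Cm d)) * ((K + 1) * ε)) := by
    intro a
    have h1 : ContDiffOn ℝ 1 (β a (G.i a)) (B G a) := by
      intro z hz
      exact (((hβ a).smooth (G.i a) z (B_sub3 G a hz)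
        ((mem_U G (B_sub3 G a hz)).2 hz)).of_le (by norm_cast)).contDiffWithinAt
    refine good2 volume (isOpen_B G a) (B_conv G a) (B_ne G a) (vol_fin (B_sub G a))
      (dist4 (B_sub G a)) (by simp) h1 ?_
    have h2 : ∫⁻ z in B G a, ‖fderiv ℝ (β a (G.i a)) z - (fderiv ℝ (β a (G.i a)) z).flip‖ₑ =
        ∫⁻ z in B G a, ‖α (G.i a) z‖ₑ := by
      refine setLIntegral_congr_fun (isOpen_B G a).measurableSet fun z hz => ?_
      have h3 : fderiv ℝ (β a (G.i a)) z - (fderiv ℝ (β a (G.i a)) z).flip = α (G.i a) z := by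
        ext u v
        exact hd a (G.i a) z (B_sub3 G a hz) ((mem_U G (B_sub3 G a hz)).2 hz) u v
      show ‖fderiv ℝ (β a (G.i a)) z - (fderiv ℝ (β a (G.i a)) z).flip‖ₑ = ‖α (G.i a) z‖ₑ
      rw [h3]
    rw [h2]
    have h4 : (K : ℝ≥0∞) * ∑ j, ∫⁻ z in S.P j, ‖α j z‖ₑ ≤
        (K + 1) * ∑ j, ∫⁻ z in S.P j, ‖α j z‖ₑ := by
      gcongr
      exact le_self_add
    refine ((hK a α hα).trans h4).trans_lt ?_
    rw [ENNReal.mul_lt_mul_iff_right (by simp) (by simp)]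
    exact hε
  choose φ γ h1 h2 h3 using key
  refine ⟨φ, γ, h1, h2, fun a => (h3 a).trans (le_of_eq ?_)⟩
  push_cast
  ring

end

end Vale.Agent.P281.H295.TS
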