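import Mathlib
import Vale.Agent.P281.H295.TS.Est

/-!
# P281, T-S block C6 (helper295): the Čech cocycle of a closed form which is small in `L¹`, 2
-/

open Set Filter Metric MeasureTheory Vale.Agent.P272.K
open scoped Topology ContDiff ComplexConjugate ComplexOrder ENNReal NNReal

noncomputable section

namespace Vale.Agent.P281.H295.TS

open Vale.Agent.P281.H64.TK Vale.Agent.P281.H64.TK.TS

variable {d : ℕ} {E Γ : Type} [TopologicalSpace E] [Group Γ] [MulAction Γ E]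
variable {S : Sheets d E Γ} {A : Type} (G : Good S A)

/-- the double intersections -/
def C2 (a b : A) : Set (Cm d) := {z | z ∈ B G a ∧ S.σ (G.i a) z ∈ G.U b}

/-- the triple intersections -/
def C3 (a b e : A) : Set (Cm d) := {z | z ∈ C2 G a b ∧ S.σ (G.i a) z ∈ G.U e}

theorem isOpen_C2 (a b : A) : IsOpen (C2 G a b) :=
  isOpen_dom S (G.i a) (G.i b) (isOpen_B G b) (B_sub3 G b) (isOpen_B G a) (B_sub3 G a)

theorem C2_sub3 (a b : A) : C2 G a b ⊆ ball 0 3 := fun _ hz => B_sub3 G a hz.1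

theorem isOpen_C3 (a b e : A) : IsOpen (C3 G a b e) :=
  isOpen_dom S (G.i a) (G.i e) (isOpen_B G e) (B_sub3 G e) (isOpen_C2 G a b) (C2_sub3 G a b)

theorem tm_mem {a b : A} {z : Cm d} (hz : z ∈ C2 G a b) :
    tm S (G.i a) (G.i b) z ∈ B G b ∧ S.σ (G.i a) z = S.σ (G.i b) (tm S (G.i a) (G.i b) z) := by
  obtain ⟨w, hw, h⟩ := hz.2
  rw [tm_eq S (B_sub3 G b hw) h.symm]
  exact ⟨hw, h.symm⟩

/-- the difference of the potentials -/
def GG (g : A → A → E → ℂ) (φ : A → Cm d → ℂ) (a b : A) (z : Cm d) : ℂ :=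
  g a b (S.σ (G.i a) z) - φ a z + φ b (tm S (G.i a) (G.i b) z)

section
variable [T2Space E] [Subsingleton Γ] {α : Fin S.N → Cm d → L2 d}
  {β : A → Fin S.N → Cm d → L1 d} {g : A → A → E → ℂ} {c : A → A → A → ℂ}
  {φ : A → Cm d → ℂ} {γ : A → Cm d → L1 d} {ε : ℝ≥0∞}

omit [T2Space E] in
theorem GG_deriv (hco : IsCo S G.U α β g c) (hp : Pot G β φ γ ε) (a b : A) {z : Cm d}
    (hz : z ∈ C2 G a b) : HasFDerivAt (GG G g φ a b)
      (γ a z - (γ b (tm S (G.i a) (G.i b) z)).comp (fderiv ℝ (tm S (G.i a) (G.i b)) z)) z := by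
  obtain ⟨h1, h2⟩ := tm_mem G hz
  have hz3 := C2_sub3 G a b hz
  have hw3 := B_sub3 G b h1
  have hU : S.σ (G.i a) z ∈ G.U a ∩ G.U b := ⟨(mem_U G hz3).2 hz.1, hz.2⟩
  have h3 : HasFDerivAt (fun u => g a b (S.σ (G.i a) u)) (β a (G.i a) z - β b (G.i a) z) z := by
    have h4 : fderiv ℝ (fun u => g a b (S.σ (G.i a) u)) z = β a (G.i a) z - β b (G.i a) z :=
      hco.d0 a b (G.i a) z hz3 hU
    have h5 := (hco.sm a b (G.i a) z hz3 hU).differentiableAt (by simp)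
    rw [← h4]
    exact h5.hasFDerivAt
  have h4 := hp.der a z hz.1
  have h5 : HasFDerivAt (tm S (G.i a) (G.i b)) (fderiv ℝ (tm S (G.i a) (G.i b)) z) z :=
    ((tm_cd S hz3 hw3 h2 1).differentiableAt one_ne_zero).hasFDerivAt
  have h6 := (hp.der b _ h1).comp z h5
  refine ((h3.sub h4).add h6).congr_fderiv ?_
  have h7 := (hco.f1 b).change (G.i a) (G.i b) z hz3 _ hw3 hz.2 _ (tr_tm S hz3 hw3 h2)
  ext v
  have h8 := h7 v
  simp only [add_apply, sub_apply,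
    ContinuousLinearMap.comp_apply]
  rw [h8]
  ring

theorem stepIII (a b : A) : ∃ K : ℝ≥0,
    ∀ (α : Fin S.N → Cm d → L2 d) (β : A → Fin S.N → Cm d → L1 d) (g : A → A → E → ℂ)
      (c : A → A → A → ℂ) (φ : A → Cm d → ℂ) (γ : A → Cm d → L1 d) (ε : ℝ≥0∞),
      IsCo S G.U α β g c → Pot G β φ γ ε → ε ≠ 0 → ε ≠ ⊤ →
      ∃ h : ℂ, ∫⁻ z in C2 G a b, ‖GG G g φ a b z - h‖ₑ ≤ K * ε := by
  obtain ⟨K1, hK1⟩ := cv S (G.i a) (G.i b)
  obtain ⟨K2, hK20, hK2⟩ := tm_bound S (G.i a) (G.i b)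
  refine ⟨4 * (2 ^ (Module.finrank ℝ (Cm d)) * (2 + K1 * K2.toNNReal)), ?_⟩
  intro α β g c φ γ ε hco hp hε0 hεt
  rcases (C2 G a b).eq_empty_or_nonempty with hemp | hne
  · refine ⟨0, ?_⟩
    rw [hemp]
    simp
  set T := tm S (G.i a) (G.i b) with hT
  have hC := isOpen_C2 G a b
  have hCs : C2 G a b ⊆ closedBall 0 2 := fun z hz => B_sub G a hz.1
  have hTc : ContinuousOn T (C2 G a b) := by
    intro z hz
    obtain ⟨h1, h2⟩ := tm_mem G hz
    exact (tm_cd S (C2_sub3 G a b hz) (B_sub3 G b h1) h2 1).continuousAt.continuousWithinAt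
  have hT'c : ContinuousOn (fderiv ℝ T) (C2 G a b) := by
    intro z hz
    obtain ⟨h1, h2⟩ := tm_mem G hz
    exact ((tm_cd S (C2_sub3 G a b hz) (B_sub3 G b h1) h2 1).fderiv_right
      (m := 0) (by norm_num)).continuousAt.continuousWithinAt
  have hγa : ContinuousOn (γ a) (C2 G a b) := (hp.cont a).mono fun z hz => hz.1
  have hγb : ContinuousOn (fun z => γ b (T z)) (C2 G a b) :=
    (hp.cont b).comp hTc fun z hz => (tm_mem G hz).1
  have hcont : ContinuousOn (fun z => γ a z - (γ b (T z)).comp (fderiv ℝ T z)) (C2 G a b) :=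
    hγa.sub (hγb.clm_comp hT'c)
  have hint : ∫⁻ z in C2 G a b, ‖γ a z - (γ b (T z)).comp (fderiv ℝ T z)‖ₑ <
      (2 + K1 * K2.toNNReal) * ε := by
    have e1 : ∫⁻ z in C2 G a b, ‖γ a z - (γ b (T z)).comp (fderiv ℝ T z)‖ₑ ≤
        ∫⁻ z in C2 G a b, (‖γ a z‖ₑ + K2.toNNReal * ‖γ b (T z)‖ₑ) := by
      refine setLIntegral_mono' hC.measurableSet fun z hz => ?_
      refine (enorm_sub_le).trans ?_
      gcongr
      have h3 : ‖(γ b (T z)).comp (fderiv ℝ T z)‖ ≤ K2 * ‖γ b (T z)‖ := by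
        refine (ContinuousLinearMap.opNorm_comp_le _ _).trans ?_
        rw [mul_comm]
        obtain ⟨h1, h2⟩ := tm_mem G hz
        exact mul_le_mul_of_nonneg_right (hK2 z (hCs hz) _ (B_sub G b h1) h2).1 (norm_nonneg _)
      have h4 := ENNReal.ofReal_le_ofReal h3
      rw [ENNReal.ofReal_mul hK20.le, ofReal_norm, ofReal_norm] at h4
      exact h4
    have e2 : ∫⁻ z in C2 G a b, (‖γ a z‖ₑ + K2.toNNReal * ‖γ b (T z)‖ₑ) =
        (∫⁻ z in C2 G a b, ‖γ a z‖ₑ) + K2.toNNReal * ∫⁻ z in C2 G a b, ‖γ b (T z)‖ₑ := by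
      rw [lintegral_add_left' (hγa.enorm.aemeasurable hC.measurableSet),
        lintegral_const_mul' _ _ ENNReal.coe_ne_top]
    have e3 : ∫⁻ z in C2 G a b, ‖γ a z‖ₑ ≤ ε :=
      (lintegral_mono_set fun z hz => hz.1).trans (hp.bd a)
    have e4 : ∫⁻ z in C2 G a b, ‖γ b (T z)‖ₑ ≤ K1 * ε := by
      refine (hK1 (C2 G a b) (B G b) hC.measurableSet hCs (B_sub G b) (fun z hz => ?_)
        (fun z => ‖γ b (T z)‖ₑ) (fun w => ‖γ b w‖ₑ) ?_).trans ?_
      · exact ⟨_, tm_mem G hz⟩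
      · intro z hz w hw h
        rw [hT, tm_eq S (B_sub3 G b hw) h]
      · gcongr
        exact hp.bd b
    have e5 : (1 + K1 * K2.toNNReal : ℝ≥0∞) * ε < (2 + K1 * K2.toNNReal) * ε := by
      rw [mul_comm _ ε, mul_comm _ ε, ENNReal.mul_lt_mul_iff_right hε0 hεt]
      refine ENNReal.add_lt_add_right ?_ ENNReal.one_lt_two
      exact ENNReal.mul_ne_top ENNReal.coe_ne_top ENNReal.coe_ne_top
    refine (e1.trans (e2.le.trans ?_)).trans_lt e5
    calc _ ≤ ε + K2.toNNReal * (K1 * ε) := by gcongr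
      _ = _ := by ring
  obtain ⟨h, hh⟩ := good1 volume hC (G.conv a b) hne (vol_fin hCs) (dist4 hCs) (by simp)
    (fun z hz => GG_deriv G hco hp a b hz) hcont hint
  refine ⟨h, hh.trans (le_of_eq ?_)⟩
  push_cast
  ring

theorem stepV (a b e : A) (hne : K3 G.U a b e) : ∃ K : ℝ≥0,
    ∀ (α : Fin S.N → Cm d → L2 d) (β : A → Fin S.N → Cm d → L1 d) (g : A → A → E → ℂ)
      (c : A → A → A → ℂ) (φ : A → Cm d → ℂ) (γ : A → Cm d → L1 d) (h : A → A → ℂ)
      (ε ε' : ℝ≥0∞), IsCo S G.U α β g c → Pot G β φ γ ε' →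
      (∀ a b, ∫⁻ z in C2 G a b, ‖GG G g φ a b z - h a b‖ₑ ≤ ε) →
      ‖c a b e - (h b e - h a e + h a b)‖ₑ ≤ K * ε := by
  obtain ⟨K1, hK1⟩ := cv S (G.i a) (G.i b)
  have hC := isOpen_C3 G a b e
  have hne' : (C3 G a b e).Nonempty := by
    obtain ⟨_, ⟨⟨z, hz, rfl⟩, hb⟩, he⟩ := hne
    exact ⟨z, ⟨hz, hb⟩, he⟩
  have hv0 : volume (C3 G a b e) ≠ 0 := (hC.measure_pos volume hne').ne'
  have hvt : volume (C3 G a b e) ≠ ⊤ := vol_fin fun z hz => B_sub G a hz.1.1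
  have hv0' : (volume (C3 G a b e)).toNNReal ≠ 0 := by
    rw [Ne, ENNReal.toNNReal_eq_zero_iff]
    push Not
    exact ⟨hv0, hvt⟩
  refine ⟨(volume (C3 G a b e)).toNNReal⁻¹ * (2 + K1), ?_⟩
  intro α β g c φ γ h ε ε' hco hp hh
  set T := tm S (G.i a) (G.i b) with hT
  have hpt : ∀ z ∈ C3 G a b e, ‖c a b e - (h b e - h a e + h a b)‖ₑ ≤
      (‖GG G g φ a e z - h a e‖ₑ + ‖GG G g φ a b z - h a b‖ₑ) + ‖GG G g φ b e (T z) - h b e‖ₑ := by
    intro z hz
    obtain ⟨h1, h2⟩ := tm_mem G hz.1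
    have hz3 := C2_sub3 G a b hz.1
    have hUe : S.σ (G.i a) z ∈ G.U e := hz.2
    obtain ⟨w, hw, hwe⟩ := hUe
    have e1 : tm S (G.i a) (G.i e) z = w := tm_eq S (B_sub3 G e hw) hwe.symm
    have e2 : tm S (G.i b) (G.i e) (T z) = w := tm_eq S (B_sub3 G e hw) (h2.symm.trans hwe.symm)
    have e3 := hco.co a b e (S.σ (G.i a) z) ⟨⟨(mem_U G hz3).2 hz.1.1, hz.1.2⟩, hz.2⟩
    have e4 : c a b e - (h b e - h a e + h a b) =
        (-(GG G g φ a e z - h a e) + (GG G g φ a b z - h a b)) +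
          (GG G g φ b e (T z) - h b e) := by
      simp only [GG]
      rw [e1, e2, ← h2, ← e3]
      ring
    rw [e4]
    refine (enorm_add_le _ _).trans ?_
    gcongr
    refine (enorm_add_le _ _).trans ?_
    rw [enorm_neg]
  have m1 : ∀ b, ContinuousOn (fun z => GG G g φ a b z - h a b) (C2 G a b) := by
    intro b z hz
    exact ((GG_deriv G hco hp a b hz).continuousAt.sub continuousAt_const).continuousWithinAt
  have hce : C3 G a b e ⊆ C2 G a e := fun z hz => ⟨hz.1.1, hz.2⟩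
  have hcb : C3 G a b e ⊆ C2 G a b := fun z hz => hz.1
  have key : volume (C3 G a b e) * ‖c a b e - (h b e - h a e + h a b)‖ₑ ≤ (2 + K1) * ε := by
    calc volume (C3 G a b e) * ‖c a b e - (h b e - h a e + h a b)‖ₑ =
        ∫⁻ z in C3 G a b e, ‖c a b e - (h b e - h a e + h a b)‖ₑ := by
          rw [setLIntegral_const, mul_comm]
      _ ≤ ∫⁻ z in C3 G a b e, ((‖GG G g φ a e z - h a e‖ₑ + ‖GG G g φ a b z - h a b‖ₑ) +
          ‖GG G g φ b e (T z) - h b e‖ₑ) := setLIntegral_mono' hC.measurableSet hpt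
      _ = ((∫⁻ z in C3 G a b e, ‖GG G g φ a e z - h a e‖ₑ) +
          (∫⁻ z in C3 G a b e, ‖GG G g φ a b z - h a b‖ₑ)) +
          ∫⁻ z in C3 G a b e, ‖GG G g φ b e (T z) - h b e‖ₑ := by
        have a1 : AEMeasurable (fun z => ‖GG G g φ a e z - h a e‖ₑ)
            (volume.restrict (C3 G a b e)) :=
          ((m1 e).mono hce).enorm.aemeasurable hC.measurableSet
        have a2 : AEMeasurable (fun z => ‖GG G g φ a b z - h a b‖ₑ)
            (volume.restrict (C3 G a b e)) :=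
          ((m1 b).mono hcb).enorm.aemeasurable hC.measurableSet
        have a3 : AEMeasurable (fun z => ‖GG G g φ a e z - h a e‖ₑ + ‖GG G g φ a b z - h a b‖ₑ)
            (volume.restrict (C3 G a b e)) := a1.add a2
        rw [lintegral_add_left' a3, lintegral_add_left' a1]
      _ ≤ (ε + ε) + K1 * ε := by
        gcongr
        · exact (lintegral_mono_set hce).trans (hh a e)
        · exact (lintegral_mono_set hcb).trans (hh a b)
        · refine (hK1 (C3 G a b e) (C2 G b e) hC.measurableSet (fun z hz => B_sub G a hz.1.1)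
            (fun z hz => B_sub G b hz.1) (fun z hz => ?_)
            (fun z => ‖GG G g φ b e (T z) - h b e‖ₑ) (fun w => ‖GG G g φ b e w - h b e‖ₑ)
            ?_).trans ?_
          · obtain ⟨h1, h2⟩ := tm_mem G hz.1
            exact ⟨T z, ⟨h1, h2 ▸ hz.2⟩, h2⟩
          · intro z hz w hw h
            rw [hT, tm_eq S (B_sub3 G b hw.1) h]
          · gcongr
            exact hh b e
      _ = _ := by ring
  have hvv : volume (C3 G a b e) = ((volume (C3 G a b e)).toNNReal : ℝ≥0∞) :=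
    (ENNReal.coe_toNNReal hvt).symm
  rw [hvv] at key
  set v := (volume (C3 G a b e)).toNNReal with hv
  have hv1 : (v : ℝ≥0∞) ≠ 0 := by exact_mod_cast hv0'
  push_cast
  rw [ENNReal.coe_inv hv0', mul_assoc]
  calc ‖c a b e - (h b e - h a e + h a b)‖ₑ =
      (v : ℝ≥0∞)⁻¹ * (v * ‖c a b e - (h b e - h a e + h a b)‖ₑ) := by
        rw [← mul_assoc, ENNReal.inv_mul_cancel hv1 ENNReal.coe_ne_top, one_mul]
    _ ≤ _ := by gcongr

theorem main [Finite A] : ∃ K : ℝ≥0,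
    ∀ (α : Fin S.N → Cm d → L2 d) (β : A → Fin S.N → Cm d → L1 d) (g : A → A → E → ℂ)
      (c : A → A → A → ℂ) (ε : ℝ≥0∞), F2On S univ α → IsCo S G.U α β g c → ε ≠ 0 → ε ≠ ⊤ →
      ∑ j, ∫⁻ z in S.P j, ‖α j z‖ₑ < ε →
      ∃ h : A → A → ℂ, ∀ a b e, K3 G.U a b e →
        ‖c a b e - (h b e - h a e + h a b)‖ₑ ≤ K * ε := by
  obtain ⟨K1, hK1⟩ := stepII G
  have h2 := fun q : A × A => stepIII G q.1 q.2
  obtain ⟨K2, hK2⟩ := unif (fun q k k' hk h α β g c φ γ ε h1 h2 h3 h4 => by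
    obtain ⟨h, hh⟩ := h α β g c φ γ ε h1 h2 h3 h4
    exact ⟨h, hh.trans (by gcongr)⟩) h2
  have h3 : ∀ q : {q : A × A × A // K3 G.U q.1 q.2.1 q.2.2}, _ := fun q =>
    stepV G q.1.1 q.1.2.1 q.1.2.2 q.2
  obtain ⟨K3', hK3⟩ := unif (fun q k k' hk h α β g c φ γ h' ε ε' h1 h2 h3 =>
    (h α β g c φ γ h' ε ε' h1 h2 h3).trans (by gcongr)) h3
  refine ⟨K3' * (K2 * (K1 + 1)), fun α β g c ε hα hco hε0 hεt hε => ?_⟩
  obtain ⟨φ, γ, hp⟩ := hK1 α β ε hα hco.f1 hco.d1 hε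
  have hp' : Pot G β φ γ ((K1 + 1) * ε) :=
    ⟨hp.cont, hp.der, fun a => (hp.bd a).trans (by gcongr; exact le_self_add)⟩
  have h4 : ((K1 : ℝ≥0∞) + 1) * ε ≠ 0 := mul_ne_zero (by simp) hε0
  have h5 : ((K1 : ℝ≥0∞) + 1) * ε ≠ ⊤ := ENNReal.mul_ne_top (by simp) hεt
  choose h hh using fun q : A × A => hK2 q α β g c φ γ _ hco hp' h4 h5
  refine ⟨fun a b => h (a, b), fun a b e hk => ?_⟩
  refine (hK3 ⟨(a, b, e), hk⟩ α β g c φ γ (fun a b => h (a, b)) _ _ hco hp'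
    fun a b => hh (a, b)).trans (le_of_eq ?_)
  push_cast
  ring

end

end Vale.Agent.P281.H295.TS
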