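import Mathlib
import Vale.Agent.P281.H295.TS.Est2

/-!
# P281, T-S block C6 (helper295): a closed form in the `L²`-closure of the exact forms is exact
-/

open Set Filter Metric MeasureTheory Vale.Agent.P272.K
open scoped Topology ContDiff ComplexConjugate ComplexOrder ENNReal NNReal

noncomputable section

namespace Vale.Agent.P281.H295.TS

open Vale.Agent.P281.H64.TK Vale.Agent.P281.H64.TK.TS

variable {d : ℕ} {E Γ : Type} [TopologicalSpace E] [Group Γ] [MulAction Γ E]
variable {S : Sheets d E Γ}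

theorem d1_apply (β : Cm d → L1 d) (z u v : Cm d) :
    d1 β z u v = fderiv ℝ β z u v - fderiv ℝ β z v u := rfl

theorem d1_smooth {β : Cm d → L1 d} {z : Cm d} (h : ContDiffAt ℝ ∞ β z) :
    ContDiffAt ℝ ∞ (d1 β) z := by
  have h1 : ContDiffAt ℝ ∞ (fderiv ℝ β) z := h.fderiv_right (by simp)
  have h3 : ContDiff ℝ ∞ (ContinuousLinearMap.flipₗᵢ ℝ (Cm d) (Cm d) ℂ) :=
    LinearIsometryEquiv.contDiff (𝕜 := ℝ) (E := Cm d →L[ℝ] Cm d →L[ℝ] ℂ)
      (F := Cm d →L[ℝ] Cm d →L[ℝ] ℂ) (ContinuousLinearMap.flipₗᵢ ℝ (Cm d) (Cm d) ℂ)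
  have h2 : ContDiffAt ℝ ∞ (fun z => (fderiv ℝ β z).flip) z := h3.contDiffAt.comp z h1
  exact h1.sub h2

/-- the transformation rule of the differential -/
theorem d1_change [Subsingleton Γ] {β : Fin S.N → Cm d → L1 d} (hβ : F1On S univ β)
    {i j : Fin S.N} {z w : Cm d} (hz : z ∈ ball (0 : Cm d) 3) (hw : w ∈ ball (0 : Cm d) 3)
    {ψ : Cm d → Cm d} (hψ : Tr S S id i j z w ψ) (u v : Cm d) :
    d1 (β i) z u v = d1 (β j) w (fderiv ℝ ψ z u) (fderiv ℝ ψ z v) := by
  have hσ : S.σ i z = S.σ j w := by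
    have := hψ.2.2.self_of_nhds
    rw [hψ.2.1] at this
    exact this
  rw [(eq_tm S hw hψ).fderiv_eq]
  set T := tm S i j with hT
  have hTz : T z = w := tm_eq S hw hσ
  have hTcd : ContDiffAt ℝ 2 T z := tm_cd S hz hw hσ 2
  have hT1 : HasFDerivAt T (fderiv ℝ T z) z := (hTcd.differentiableAt (by simp)).hasFDerivAt
  have hT2 : HasFDerivAt (fderiv ℝ T) (fderiv ℝ (fderiv ℝ T) z) z :=
    ((hTcd.fderiv_right (m := 1) (by norm_num)).differentiableAt one_ne_zero).hasFDerivAt
  have hsym : IsSymmSndFDerivAt ℝ T z := hTcd.isSymmSndFDerivAt (by simp)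
  have hβj : HasFDerivAt (β j) (fderiv ℝ (β j) w) w :=
    ((hβ.smooth j w hw (mem_univ _)).differentiableAt (by simp)).hasFDerivAt
  have hev : β i =ᶠ[𝓝 z] fun u => (β j (T u)).comp (fderiv ℝ T u) := by
    filter_upwards [(tm_ev S hz hw hσ).2, isOpen_ball.mem_nhds hz] with u hu hu3
    ext v
    exact hβ.change i j u hu3 _ hu.1 (mem_univ _) _ (tr_tm S hu3 hu.1 hu.2) v
  have hc : HasFDerivAt (fun u => β j (T u)) ((fderiv ℝ (β j) w).comp (fderiv ℝ T z)) z := by
    rw [← hTz] at hβj ⊢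
    exact hβj.comp z hT1
  have hD := hc.clm_comp hT2
  have hD' : fderiv ℝ (β i) z = _ := (hD.congr_of_eventuallyEq hev).fderiv
  have key : ∀ u v, fderiv ℝ (β i) z u v =
      fderiv ℝ (β j) w (fderiv ℝ T z u) (fderiv ℝ T z v) +
        β j w (fderiv ℝ (fderiv ℝ T) z u v) := by
    intro u v
    rw [hD']
    simp [hTz, add_comm]
  rw [d1_apply, d1_apply, key, key, hsym.eq u v]
  ring

theorem f2_sub [Subsingleton Γ] {α : Fin S.N → Cm d → L2 d} {β : Fin S.N → Cm d → L1 d}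
    (hα : F2On S univ α) (hβ : F1On S univ β) :
    F2On S univ (fun i z => α i z - d1 (β i) z) where
  smooth i z hz hU := (hα.smooth i z hz hU).sub (d1_smooth (hβ.smooth i z hz hU))
  alt i z hz hU u v := by
    show α i z u v - d1 (β i) z u v = -(α i z v u - d1 (β i) z v u)
    rw [hα.alt i z hz hU u v, d1_apply, d1_apply]
    ring
  change i j z hz z' hz' hU ψ hψ u v := by
    show α i z u v - d1 (β i) z u v = α j z' _ _ - d1 (β j) z' _ _
    rw [hα.change i j z hz z' hz' hU ψ hψ u v, d1_change hβ hz hz' hψ]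

theorem co_sub {A : Type} {U : A → Set E} {α : Fin S.N → Cm d → L2 d}
    {β : A → Fin S.N → Cm d → L1 d} {g : A → A → E → ℂ} {c : A → A → A → ℂ}
    {b : Fin S.N → Cm d → L1 d} (hco : IsCo S U α β g c) (hb : F1On S univ b) :
    IsCo S U (fun i z => α i z - d1 (b i) z) (fun a i z => β a i z - b i z) g c where
  f1 a :=
    { smooth := fun i z hz hU =>
        ((hco.f1 a).smooth i z hz hU).sub (hb.smooth i z hz (mem_univ _))
      change := fun i j z hz z' hz' hU ψ hψ v => by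
        show β a i z v - b i z v = β a j z' _ - b j z' _
        rw [(hco.f1 a).change i j z hz z' hz' hU ψ hψ v,
          hb.change i j z hz z' hz' (mem_univ _) ψ hψ v] }
  d1 a i z hz hU u v := by
    have h1 : DifferentiableAt ℝ (β a i) z :=
      ((hco.f1 a).smooth i z hz hU).differentiableAt (by simp)
    have h2 : DifferentiableAt ℝ (b i) z :=
      (hb.smooth i z hz (mem_univ _)).differentiableAt (by simp)
    have h3 : fderiv ℝ (fun z => β a i z - b i z) z = fderiv ℝ (β a i) z - fderiv ℝ (b i) z :=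
      fderiv_fun_sub h1 h2
    rw [h3]
    show (fderiv ℝ (β a i) z u v - fderiv ℝ (b i) z u v) -
      (fderiv ℝ (β a i) z v u - fderiv ℝ (b i) z v u) = α i z u v - TS.d1 (b i) z u v
    rw [← hco.d1 a i z hz hU u v, d1_apply]
    ring
  sm := hco.sm
  d0 a a' i z hz hU := by
    show _ = (β a i z - b i z) - (β a' i z - b i z)
    have h1 : fderiv ℝ (fun u => g a a' (S.σ i u)) z = β a i z - β a' i z :=
      hco.d0 a a' i z hz hU
    rw [h1]
    ext v
    simp
  co := hco.co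
  zero := hco.zero

theorem P_sub1 (j : Fin S.N) : S.P j ⊆ closedBall 0 1 := by
  intro z hz
  rw [mem_closedBall_zero_iff]
  exact hz.1.le

theorem l1_of_l2 (j : Fin S.N) {f : Cm d → ℝ} (hf : ContinuousOn f (closedBall 0 1))
    {η : ℝ} (hη : 0 < η) :
    ∫⁻ z in S.P j, ENNReal.ofReal (f z) ≤
      ENNReal.ofReal η * volume (closedBall (0 : Cm d) 1) +
        ENNReal.ofReal (η⁻¹ * ∫ z in S.P j, f z ^ 2) := by
  have h1 : IntegrableOn (fun z => f z ^ 2) (S.P j) :=
    ((hf.pow 2).integrableOn_compact (isCompact_closedBall (0 : Cm d) 1)).mono_set (P_sub1 j)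
  have h2 : ENNReal.ofReal (∫ z in S.P j, f z ^ 2) =
      ∫⁻ z in S.P j, ENNReal.ofReal (f z ^ 2) :=
    ofReal_integral_eq_lintegral_ofReal h1 (Eventually.of_forall fun z => sq_nonneg _)
  rw [ENNReal.ofReal_mul (inv_nonneg.2 hη.le), h2]
  have h3 : ∀ z, ENNReal.ofReal (f z) ≤
      ENNReal.ofReal η + ENNReal.ofReal η⁻¹ * ENNReal.ofReal (f z ^ 2) := by
    intro z
    rw [← ENNReal.ofReal_mul (inv_nonneg.2 hη.le), ← ENNReal.ofReal_add hη.le (by positivity)]
    refine ENNReal.ofReal_le_ofReal ?_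
    have h4 : 0 ≤ η⁻¹ * (η ^ 2 - η * f z + f z ^ 2) := by
      have : 0 ≤ η ^ 2 - η * f z + f z ^ 2 := by nlinarith [sq_nonneg (η - f z), sq_nonneg (f z), sq_nonneg η]
      positivity
    have h5 : η⁻¹ * (η ^ 2 - η * f z + f z ^ 2) = η - f z + η⁻¹ * f z ^ 2 := by
      field_simp
    linarith
  calc ∫⁻ z in S.P j, ENNReal.ofReal (f z) ≤
      ∫⁻ z in S.P j, (ENNReal.ofReal η + ENNReal.ofReal η⁻¹ * ENNReal.ofReal (f z ^ 2)) :=
        lintegral_mono h3
    _ = ENNReal.ofReal η * volume (S.P j) +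
        ENNReal.ofReal η⁻¹ * ∫⁻ z in S.P j, ENNReal.ofReal (f z ^ 2) := by
        rw [lintegral_add_left measurable_const, setLIntegral_const,
          lintegral_const_mul' _ _ ENNReal.ofReal_ne_top]
    _ ≤ _ := by
        gcongr
        exact P_sub1 j

/-- the coboundaries -/
def cobs {A : Type} (K : A → A → A → Prop) : Submodule ℂ (A → A → A → ℂ) where
  carrier := {c | IsCob K c}
  add_mem' := by
    rintro c c' ⟨h, hh⟩ ⟨h', hh'⟩
    refine ⟨fun a b => h a b + h' a b, fun a b e hk => ?_⟩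
    show c a b e + c' a b e = _
    rw [hh a b e hk, hh' a b e hk]
    ring
  zero_mem' := ⟨0, fun a b e _ => by simp⟩
  smul_mem' := by
    rintro r c ⟨h, hh⟩
    refine ⟨fun a b => r * h a b, fun a b e hk => ?_⟩
    show r * c a b e = _
    rw [hh a b e hk]
    ring

theorem cob_closed {A : Type} [Fintype A] (K : A → A → A → Prop) (c : A → A → A → ℂ)
    (h : ∀ δ > 0, ∃ h : A → A → ℂ, ∀ a b e, K a b e →
      ‖c a b e - (h b e - h a e + h a b)‖ ≤ δ) : IsCob K c := by
  classical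
  have h1 : IsClosed (cobs K : Set (A → A → A → ℂ)) := Submodule.closed_of_finiteDimensional _
  have h2 : c ∈ closure (cobs K : Set (A → A → A → ℂ)) := by
    rw [Metric.mem_closure_iff]
    intro δ hδ
    obtain ⟨h, hh⟩ := h (δ / 2) (by positivity)
    refine ⟨fun a b e => if K a b e then h b e - h a e + h a b else c a b e,
      ⟨h, fun a b e hk => if_pos hk⟩, ?_⟩
    refine lt_of_le_of_lt (b := δ / 2) ?_ (by linarith)
    refine (dist_pi_le_iff (by positivity)).2 fun a => ?_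
    refine (dist_pi_le_iff (by positivity)).2 fun b => ?_
    refine (dist_pi_le_iff (by positivity)).2 fun e => ?_
    by_cases hk : K a b e
    · rw [if_pos hk, dist_eq_norm]
      exact hh a b e hk
    · rw [if_neg hk, dist_self]
      positivity
  rw [h1.closure_eq] at h2
  exact h2

/-- **Block C6.** -/
theorem l2Ex (hG : GoodStmt) (hE : CoExStmt) (hC : CoCobStmt) : L2ExStmt := by
  intro d E Γ _ _ _ _ _ _ S α hd hα happ
  obtain ⟨A, _, G, -⟩ := hG d E Γ S hd 1 one_pos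
  obtain ⟨β, g, c, hco⟩ := hE d E Γ S A G α hd hα
  refine ((hC d E Γ S A G α β g c hd hα hco).2).2 ?_
  refine cob_closed _ c fun δ hδ => ?_
  obtain ⟨K, hK⟩ := main G
  set V : ℝ≥0∞ := (S.N : ℝ≥0∞) * volume (closedBall (0 : Cm d) 1) with hV
  have hVt : V ≠ ⊤ := ENNReal.mul_ne_top (by simp) (isCompact_closedBall (0 : Cm d) 1).measure_ne_top
  set M : ℝ := (K * (V + 2)).toReal with hM
  have hKV : (K : ℝ≥0∞) * (V + 2) ≠ ⊤ :=
    ENNReal.mul_ne_top ENNReal.coe_ne_top (ENNReal.add_ne_top.2 ⟨hVt, by simp⟩)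
  have hM0 : 0 ≤ M := ENNReal.toReal_nonneg
  set η : ℝ := δ / (M + 1) with hη
  have hη0 : 0 < η := by positivity
  obtain ⟨b, hb, hsum⟩ := happ (η ^ 2) (by positivity)
  have hF2 := f2_sub hα.toF2On hb
  have hco' := co_sub hco hb
  have hcont : ∀ j, ContinuousOn (fun z => ‖α j z - d1 (b j) z‖) (closedBall 0 1) := by
    intro j z hz
    have hz3 : z ∈ ball (0 : Cm d) 3 := by
      rw [mem_closedBall_zero_iff] at hz
      rw [mem_ball_zero_iff]
      linarith
    have h5 := (hF2.smooth j z hz3 (mem_univ _)).continuousAt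
    exact (ContinuousAt.norm (E := Cm d →L[ℝ] Cm d →L[ℝ] ℂ) h5).continuousWithinAt
  have hlt : ∑ j, ∫⁻ z in S.P j, ‖α j z - d1 (b j) z‖ₑ < ENNReal.ofReal η * (V + 2) := by
    calc ∑ j, ∫⁻ z in S.P j, ‖α j z - d1 (b j) z‖ₑ =
        ∑ j, ∫⁻ z in S.P j, ENNReal.ofReal ‖α j z - d1 (b j) z‖ := by
          refine Finset.sum_congr rfl fun j _ => lintegral_congr fun z => ?_
          exact (ofReal_norm (E := Cm d →L[ℝ] Cm d →L[ℝ] ℂ) _).symm
      _ ≤ ∑ j, (ENNReal.ofReal η * volume (closedBall (0 : Cm d) 1) +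
          ENNReal.ofReal (η⁻¹ * ∫ z in S.P j, ‖α j z - d1 (b j) z‖ ^ 2)) :=
          Finset.sum_le_sum fun j _ => l1_of_l2 j (hcont j) hη0
      _ = ENNReal.ofReal η * V +
          ENNReal.ofReal (η⁻¹ * ∑ j, ∫ z in S.P j, ‖α j z - d1 (b j) z‖ ^ 2) := by
          rw [Finset.sum_add_distrib, Finset.sum_const, Finset.card_univ, Fintype.card_fin,
            Finset.mul_sum, ENNReal.ofReal_sum_of_nonneg, hV]
          · simp only [nsmul_eq_mul]
            ring
          · intro j _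
            exact mul_nonneg (inv_nonneg.2 hη0.le) (integral_nonneg fun z => sq_nonneg _)
      _ ≤ ENNReal.ofReal η * V + ENNReal.ofReal η := by
          gcongr
          calc η⁻¹ * ∑ j, ∫ z in S.P j, ‖α j z - d1 (b j) z‖ ^ 2 ≤ η⁻¹ * η ^ 2 := by gcongr
            _ = η := by field_simp
      _ = ENNReal.ofReal η * (V + 1) := by ring
      _ < _ := by
          rw [ENNReal.mul_lt_mul_iff_right (by simpa using hη0) ENNReal.ofReal_ne_top]
          rw [add_comm V 1, add_comm V 2]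
          exact ENNReal.add_lt_add_right hVt ENNReal.one_lt_two
  have h0 : ENNReal.ofReal η * (V + 2) ≠ 0 := mul_ne_zero (by simpa using hη0) (by simp)
  have h1 : ENNReal.ofReal η * (V + 2) ≠ ⊤ :=
    ENNReal.mul_ne_top ENNReal.ofReal_ne_top (ENNReal.add_ne_top.2 ⟨hVt, by simp⟩)
  obtain ⟨h, hh⟩ := hK _ _ g c _ hF2 hco' h0 h1 hlt
  refine ⟨h, fun a b e hk => ?_⟩
  have h2 := hh a b e hk
  have h3 : (K : ℝ≥0∞) * (ENNReal.ofReal η * (V + 2)) = ENNReal.ofReal (η * M) := by
    rw [ENNReal.ofReal_mul hη0.le, hM, ENNReal.ofReal_toReal hKV]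
    ring
  rw [h3, ← ofReal_norm, ENNReal.ofReal_le_ofReal_iff (by positivity)] at h2
  refine h2.trans ?_
  rw [hη, div_mul_eq_mul_div, div_le_iff₀ (by positivity)]
  nlinarith

end Vale.Agent.P281.H295.TS
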